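import Vale.Agent.Q018.Main

open Polynomial Filter Asymptotics

open Vale.Agent.P018 Vale.Agent.P018.H867 Vale.Agent.Q018 in
/-- Squarefree and power-free values of polynomials.
(1) Q1 for every irreducible polynomial of degree at most four;
(2) the polynomial `X ^ 4 + 2`, with no hypothesis;
(3) the exponent `d - 2` for every degree `d ≥ 4`;
(4) every pair `(d, k)` of the range `Rng`;
(5) arbitrary `f ≠ 0`, possibly reducible and with multiple factors;
(6) several such polynomials, each with its own exponent, simultaneously. -/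
theorem Vale.Agent.Results.P018.A00AllRanges.result :
    (∀ f : ℤ[X], Irreducible (f.map (Int.castRingHom ℚ)) → f.natDegree ≤ 4 → Loc f 2 →
      Asym f 2) ∧
    (Asym (X ^ 4 + 2) 2 ∧ {n : ℕ | Squarefree (n ^ 4 + 2)}.Infinite) ∧
    (∀ f : ℤ[X], Irreducible (f.map (Int.castRingHom ℚ)) → 4 ≤ f.natDegree →
      Loc f (f.natDegree - 2) → Asym f (f.natDegree - 2)) ∧
    (∀ (f : ℤ[X]) (k : ℕ), 2 ≤ k → Irreducible (f.map (Int.castRingHom ℚ)) →
      Rng f.natDegree k → Loc f k → Asym f k) ∧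
    (∀ (f : ℤ[X]) (k : ℕ), 2 ≤ k → GoodQ f k → Loc f k → Asym f k) ∧
    (∀ (m : ℕ) (f : Fin m → ℤ[X]) (k : Fin m → ℕ), 0 < m →
      (∀ i, 2 ≤ k i ∧ GoodQ (f i) (k i)) →
      (∀ p : ℕ, p.Prime → rhoS f k p < p ^ topExp k) →
      Multipliable (fun p : Nat.Primes => 1 - (rhoS f k p : ℝ) / ((p : ℕ) : ℝ) ^ topExp k) ∧
      0 < densityS f k ∧
      ∃ δ C : ℝ, 0 < δ ∧ ∀ X : ℕ, 1 ≤ X →
        |(countS f k X : ℝ) - densityS f k * X| ≤ C * (X : ℝ) ^ (1 - δ)) :=
  ⟨fun f hirr hd hloc => asym_of_irr f 2 le_rfl hirr hloc (Or.inl (by omega)),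
    ⟨asym_four, infinite_four⟩,
    fun f hirr hd hloc => asym_of_irr f _ (by omega) hirr hloc (Or.inl (by omega)),
    fun f k hk hirr hr hloc => asym_of_irr f k hk hirr hloc hr,
    fun f k hk hf hloc => asym_of_good f k hk hf hloc,
    fun _ f k hm h hloc => family hm f k (fun i => (h i).1) (fun i => (h i).2) hloc⟩
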